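import Vale.Agent.P366.H896.X1h
import Vale.Agent.P366.H896.N.X5d

/-! Divergence of a superpotential along a graph; positivity of the linear Einstein tensor. -/

open MeasureTheory Metric Filter Topology Set
open scoped ContDiff ENNReal

noncomputable section
namespace Vale.Agent.P366.KSN

open Vale.Agent.P366 (pd E)
open Vale.Agent.P366.H353.N
open Vale.Agent.P366.H896
open Vale.Agent.P366.Kerr (NullCone IsSlice Region Psi pt sp nul ksG indG indK DECat
  FutureTimelike)

variable {n : ℕ}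

namespace Gr

open X5

/-! ### derivatives along a graph -/

lemma pt_lin (t : ℝ) (y : E n) : pt t y = pt 0 y + t • EuclideanSpace.single (0 : Fin (n + 1)) 1 := by
  ext j
  refine Fin.cases ?_ (fun j => ?_) j
  · simp [pt]
  · simp [pt]

lemma fderiv_pt0 (y : E n) (i : Fin n) : fderiv ℝ (pt 0 : E n → E (n + 1)) y
    (EuclideanSpace.single i 1) = EuclideanSpace.single i.succ 1 := by
  have h1 : HasFDerivAt (pt 0 : E n → E (n + 1)) (fderiv ℝ (pt 0) y) y :=
    ((pt_contDiff (r := 1) 0).contDiffAt.differentiableAt_one).hasFDerivAt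
  have h2 := h1.hasLineDerivAt (EuclideanSpace.single i (1 : ℝ))
  have h3 : HasLineDerivAt ℝ (pt 0 : E n → E (n + 1)) (EuclideanSpace.single i.succ 1) y
      (EuclideanSpace.single i (1 : ℝ)) := by
    unfold HasLineDerivAt
    simp only [pt_add]
    have := ((hasDerivAt_id (0 : ℝ)).smul_const
      (EuclideanSpace.single i.succ (1 : ℝ) : E (n + 1))).const_add (pt 0 y)
    simpa using this
  exact h2.unique h3

lemma gr_fderiv {f : E n → ℝ} {y : E n} (hf : DifferentiableAt ℝ f y) :
    HasFDerivAt (fun z => pt (f z) z) (fderiv ℝ (pt 0) y + (fderiv ℝ f y).smulRight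
      (EuclideanSpace.single (0 : Fin (n + 1)) (1 : ℝ))) y := by
  have h1 : HasFDerivAt (pt 0 : E n → E (n + 1)) (fderiv ℝ (pt 0) y) y :=
    ((pt_contDiff (r := 1) 0).contDiffAt.differentiableAt_one).hasFDerivAt
  have h2 := h1.add (hf.hasFDerivAt.smul_const
    (EuclideanSpace.single (0 : Fin (n + 1)) (1 : ℝ) : E (n + 1)))
  have h3 : (fun z => pt (f z) z) = fun z => pt 0 z + f z •
      (EuclideanSpace.single (0 : Fin (n + 1)) (1 : ℝ) : E (n + 1)) := by
    funext z; exact pt_lin (f z) z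
  rw [h3]
  exact h2

/-- the derivatives of a function along a graph -/
lemma dp_gr {F : E (n + 1) → ℝ} {f : E n → ℝ} {y : E n} (hF : DifferentiableAt ℝ F (pt (f y) y))
    (hf : DifferentiableAt ℝ f y) (i : Fin n) : DP i (fun z => F (pt (f z) z))
      (pd i.succ F (pt (f y) y) + pd i f y * pd 0 F (pt (f y) y)) y := by
  have h1 : HasFDerivAt (fun z => F (pt (f z) z)) ((fderiv ℝ F (pt (f y) y)).comp
      (fderiv ℝ (pt 0) y + (fderiv ℝ f y).smulRight
        (EuclideanSpace.single (0 : Fin (n + 1)) (1 : ℝ)))) y :=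
    HasFDerivAt.comp (g := F) (f := fun z => pt (f z) z) y hF.hasFDerivAt (gr_fderiv hf)
  refine ⟨h1.differentiableAt, ?_⟩
  unfold Vale.Agent.P366.pd
  rw [h1.fderiv]
  simp only [ContinuousLinearMap.comp_apply, ContinuousLinearMap.add_apply,
    ContinuousLinearMap.smulRight_apply, map_add, map_smul, smul_eq_mul]
  rw [fderiv_pt0]

/-- **[V3]** The divergence along the graph of `f` of the field made of a superpotential. -/
theorem div_graph {W : Fin (n + 1) → Fin (n + 1) → E (n + 1) → ℝ}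
    (anti : ∀ a c p, W a c p = - W c a p) {f : E n → ℝ} {y : E n} (hf : ContDiffAt ℝ ∞ f y)
    (hW : ∀ a c, DifferentiableAt ℝ (W a c) (pt (f y) y)) :
    (∀ i : Fin n, DifferentiableAt ℝ (fun z => W 0 i.succ (pt (f z) z) -
        ∑ j : Fin n, pd j f z * W j.succ i.succ (pt (f z) z)) y) ∧
    ∑ i : Fin n, pd i (fun z => W 0 i.succ (pt (f z) z) -
        ∑ j : Fin n, pd j f z * W j.succ i.succ (pt (f z) z)) y =
      ∑ c, pd c (W 0 c) (pt (f y) y) -
        ∑ j : Fin n, pd j f y * ∑ c, pd c (W j.succ c) (pt (f y) y) := by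
  set p := pt (f y) y with hp
  have hfd : DifferentiableAt ℝ f y := cdd hf
  have h1 : ∀ i : Fin n, DP i (fun z => W 0 i.succ (pt (f z) z) -
      ∑ j : Fin n, pd j f z * W j.succ i.succ (pt (f z) z))
      ((pd i.succ (W 0 i.succ) p + pd i f y * pd 0 (W 0 i.succ) p) -
        ∑ j : Fin n, (pd i (pd j f) y * W j.succ i.succ p +
          pd j f y * (pd i.succ (W j.succ i.succ) p + pd i f y * pd 0 (W j.succ i.succ) p))) y := by
    intro i
    exact (dp_gr (hW _ _) hfd i).sub (DP.sum _ fun j =>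
      (DP.of (cdd (cd_pd hf j))).mul (dp_gr (hW _ _) hfd i))
  refine ⟨fun i => (h1 i).1, ?_⟩
  simp only [fun i => (h1 i).2]
  have hpa : ∀ a c b, pd b (W a c) p = - pd b (W c a) p := by
    intro a c b
    have e1 : W a c = fun q => - W c a q := by funext q; exact anti a c q
    have e2 : DP b (fun q => (0 : ℝ) - W c a q) (0 - pd b (W c a) p) p :=
      (DP.const 0).sub (DP.of (hW c a))
    have e3 : W a c = fun q => (0 : ℝ) - W c a q := by rw [e1]; funext q; ring
    rw [e3, e2.2]; ring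
  have hp0 : ∀ a b, pd b (W a a) p = 0 := by
    intro a b; have := hpa a a b; linarith
  have z1 : ∑ i : Fin n, ∑ j : Fin n, pd i (pd j f) y * W j.succ i.succ p = 0 := by
    have e1 : ∑ i : Fin n, ∑ j : Fin n, pd i (pd j f) y * W j.succ i.succ p =
        - ∑ i : Fin n, ∑ j : Fin n, pd i (pd j f) y * W j.succ i.succ p := by
      conv_lhs => rw [Finset.sum_comm]
      rw [← Finset.sum_neg_distrib]
      refine Finset.sum_congr rfl fun i _ => ?_
      rw [← Finset.sum_neg_distrib]
      refine Finset.sum_congr rfl fun j _ => ?_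
      rw [anti i.succ j.succ p, pd_comm' hf j i]; ring
    linarith
  have z2 : ∑ i : Fin n, ∑ j : Fin n, pd j f y * (pd i f y * pd 0 (W j.succ i.succ) p) = 0 := by
    have e1 : ∑ i : Fin n, ∑ j : Fin n, pd j f y * (pd i f y * pd 0 (W j.succ i.succ) p) =
        - ∑ i : Fin n, ∑ j : Fin n, pd j f y * (pd i f y * pd 0 (W j.succ i.succ) p) := by
      conv_lhs => rw [Finset.sum_comm]
      rw [← Finset.sum_neg_distrib]
      refine Finset.sum_congr rfl fun i _ => ?_
      rw [← Finset.sum_neg_distrib]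
      refine Finset.sum_congr rfl fun j _ => ?_
      rw [hpa i.succ j.succ 0]; ring
    linarith
  have e1 : ∑ i : Fin n, ((pd i.succ (W 0 i.succ) p + pd i f y * pd 0 (W 0 i.succ) p) -
        ∑ j : Fin n, (pd i (pd j f) y * W j.succ i.succ p +
          pd j f y * (pd i.succ (W j.succ i.succ) p + pd i f y * pd 0 (W j.succ i.succ) p))) =
      ∑ i : Fin n, pd i.succ (W 0 i.succ) p + ∑ i : Fin n, pd i f y * pd 0 (W 0 i.succ) p -
      ∑ i : Fin n, ∑ j : Fin n, pd j f y * pd i.succ (W j.succ i.succ) p := by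
    simp only [mul_add, Finset.sum_add_distrib, Finset.sum_sub_distrib, z1, z2]
    ring
  rw [e1, Fin.sum_univ_succ (f := fun c => pd c (W 0 c) p), hp0 0 0]
  have e2 : ∑ j : Fin n, pd j f y * ∑ c, pd c (W j.succ c) p =
      - ∑ j : Fin n, pd j f y * pd 0 (W 0 j.succ) p +
        ∑ i : Fin n, ∑ j : Fin n, pd j f y * pd i.succ (W j.succ i.succ) p := by
    conv_rhs => rw [Finset.sum_comm]
    rw [← Finset.sum_neg_distrib, ← Finset.sum_add_distrib]
    refine Finset.sum_congr rfl fun j _ => ?_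
    rw [Fin.sum_univ_succ, hpa j.succ 0 0, mul_add, Finset.mul_sum]
    ring
  rw [e2]
  ring

/-! ### positivity -/

/-- **[V2]** For the Kerr-Schild metric the tensor `η_{ac} G^c_b` satisfies the dominant energy
condition of Minkowski space. -/
theorem pos_T {g : Stmt.Field (n + 1)} {w V : E (n + 1) → ℝ} {U : Set (E (n + 1))}
    (hT : KSg X1.sgn g w V U) {p : E (n + 1)} (hp : p ∈ U) (h : DECat g w p)
    (hw : 0 < Stmt.pd 0 w p) {X Y : Fin (n + 1) → ℝ} (hX : ∑ i : Fin n, X i.succ ^ 2 ≤ X 0 ^ 2)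
    (hX0 : 0 ≤ X 0) (hY : ∑ i : Fin n, Y i.succ ^ 2 ≤ Y 0 ^ 2) (hY0 : 0 ≤ Y 0) :
    0 ≤ ∑ a, ∑ b, X1.sgn a * einM g a b p * X a * Y b := by
  set wt := Stmt.pd 0 w p with hwt
  have hnul : ∑ i : Fin n, Stmt.pd i.succ w p ^ 2 = wt ^ 2 := by
    have h1 := hT.null p hp
    rw [Fin.sum_univ_succ] at h1
    simp only [X1.sgn0, X1.sgns, one_mul, ← sq] at h1
    linarith
  -- `w(X) ≥ 0` for future causal `X`
  have hwX : ∀ X : Fin (n + 1) → ℝ, ∑ i : Fin n, X i.succ ^ 2 ≤ X 0 ^ 2 → 0 ≤ X 0 →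
      0 ≤ ∑ a, Stmt.pd a w p * X a := by
    intro X hX hX0
    rw [Fin.sum_univ_succ]
    have h1 := Finset.sum_mul_sq_le_sq_mul_sq Finset.univ (fun i : Fin n => Stmt.pd i.succ w p)
      (fun i => X i.succ)
    rw [hnul] at h1
    have h2 : (∑ i : Fin n, Stmt.pd i.succ w p * X i.succ) ^ 2 ≤ (wt * X 0) ^ 2 := by
      calc _ ≤ wt ^ 2 * ∑ i : Fin n, X i.succ ^ 2 := h1
        _ ≤ wt ^ 2 * X 0 ^ 2 := mul_le_mul_of_nonneg_left hX (sq_nonneg _)
        _ = _ := by ring
    have h3 := abs_le_of_sq_le_sq h2 (mul_nonneg hw.le hX0)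
    linarith [(abs_le.1 h3).1]
  -- `X + t ∂_t` is mapped by `φ` to a future timelike vector
  have hF : ∀ X : Fin (n + 1) → ℝ, ∑ i : Fin n, X i.succ ^ 2 ≤ X 0 ^ 2 → 0 ≤ X 0 → ∀ t : ℝ,
      0 < t → FutureTimelike g w p (KSg.phi X1.sgn w V p
        (fun a => X a + t * (if a = 0 then 1 else 0))) := by
    intro X hX hX0 t ht
    constructor
    · rw [hT.g_phi hp, Fin.sum_univ_succ]
      simp only [X1.sgn0, X1.sgns, if_true, Fin.succ_ne_zero, if_false, mul_zero, add_zero,
        one_mul, mul_one, ← sq]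
      nlinarith [mul_nonneg ht.le hX0, sq_nonneg t, mul_pos ht ht]
    · rw [hT.w_phi hp]
      have h1 : ∑ a, Stmt.pd a w p * (X a + t * (if a = 0 then 1 else 0)) =
          ∑ a, Stmt.pd a w p * X a + t * wt := by
        have : ∀ a : Fin (n + 1), Stmt.pd a w p * (X a + t * (if a = 0 then 1 else 0)) =
            Stmt.pd a w p * X a + (if a = 0 then t * wt else 0) := by
          intro a
          split_ifs with ha
          · subst ha; rw [hwt]; ring
          · ring
        simp only [this, Finset.sum_add_distrib, Finset.sum_ite_eq', Finset.mem_univ, if_true]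
      rw [h1]
      have := hwX X hX hX0
      have := mul_pos ht hw
      linarith
  set N : Fin (n + 1) → ℝ := fun a => if a = 0 then 1 else 0 with hN
  set T : Fin (n + 1) → Fin (n + 1) → ℝ := fun a b => X1.sgn a * einM g a b p with hTdef
  have key : ∀ t : ℝ, 0 < t → 0 ≤ X1.Bf T X Y + t * (X1.Bf T X N + X1.Bf T N Y) +
      t ^ 2 * X1.Bf T N N := by
    intro t ht
    rw [← X1.Bf_lin]
    have h1 := h _ _ (hF X hX hX0 t ht) (hF Y hY hY0 t ht)
    have h2 := hT.ein_phi hp (fun a => X a + t * (if a = 0 then 1 else 0))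
      (fun a => Y a + t * (if a = 0 then 1 else 0))
    have h3 : ∑ i, ∑ j, Kerr.ein g i j p * KSg.phi X1.sgn w V p
        (fun a => X a + t * (if a = 0 then 1 else 0)) i * KSg.phi X1.sgn w V p
        (fun a => Y a + t * (if a = 0 then 1 else 0)) j =
        ∑ i, ∑ j, H896.ein g i j p * KSg.phi X1.sgn w V p
        (fun a => X a + t * (if a = 0 then 1 else 0)) i * KSg.phi X1.sgn w V p
        (fun a => Y a + t * (if a = 0 then 1 else 0)) j :=
      Finset.sum_congr rfl fun i _ => Finset.sum_congr rfl fun j _ => by rw [X1.ein_eq]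
    rw [h3, h2] at h1
    exact h1
  exact X1.lim_nonneg key

end Gr

end Vale.Agent.P366.KSN
end
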